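import Crest.Agent.X212.Tor42.End
import Crest.Agent.X212.Anb49.Main

/-!
# X212 / T layer, TOR (helper42), part 4: recognition of the torus, `Rung0Stmt` without `TorRec`
-/

set_option autoImplicit false

open Set Filter Topology Metric

namespace Crest.Agent.X212.Tor42

open Crest.Agent.R096 Crest.Agent.R096.Ce_537 Crest.Agent.X212.Prd34 Crest.Agent.X212.Srf12
  Crest.Agent.X212.Lev33 Crest.Agent.X212.Rz42

/-- **(NONSEP)** (12) -/
def Nonsep : Prop := ∀ S : Set V, Srf S ∅ → IsConnected S →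
  (∃ c : V → V → Z2, Coc S c ∧ ¬ Tr S c) → ∃ (Γ : Set V) (γ : ℝ → V), Loop Γ γ ∧ Γ ⊆ S ∧
    IsPreconnected (S \ Γ) ∧ ∃ ω : V → V → Z2, Coc S ω ∧ ¬ Tr Γ ω

/-- **(BDSUM)** (12) -/
def Bdsum : Prop := ∀ (B G₁ G₂ : Set V) (γ₁ γ₂ : ℝ → V) (κ : V → V → Z2), Srf B (G₁ ∪ G₂) →
  Disjoint G₁ G₂ → Loop G₁ γ₁ → Loop G₂ γ₂ → Coc B κ → Tr G₁ κ → Tr G₂ κ

variable {H : V → V} {S : Set V}

/-- **(TOR)** -/
theorem tor (hA : AnnRec) (hN : Nonsep) (hB : Bdsum) (h : Per {0, 1} H) (hS : Srf S ∅)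
    (hr : S ⊆ range H) (hc : IsConnected (H ⁻¹' S))
    (ht : ∀ c : V → V → Z2, Coc S c → Tr (H ⁻¹' S) fun x y => c (H x) (H y))
    {M dM : Set V} (hM : Mf M dM) (hd : Clop dM S) :
    ∃ u : P → V, Continuous u ∧ Tor S (fun y => H (u y)) ∧
      ∀ y m : P, lv 0 m ∈ lat {0, 1} → u (y + m) = u y + lv 0 m := by
  have cS : IsConnected S := by
    rw [← image_preimage_eq_of_subset hr]
    exact hc.image H h.cont.continuousOn
  obtain ⟨z, hz⟩ := hc.1
  obtain ⟨p, hp⟩ := (lpc_pre h (Srf.lcv hS).lpc).joined hc.2 hz (mem_add h hz e0_mem)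
  obtain ⟨Γ, γ, hγ, sΓ, cΓ, ω, hω, nω⟩ := hN S hS cS ⟨_, (Rg3.coc_par h (i := 0) (by decide)).mono hr,
    Rg3.not_tr_par h (by decide) p.continuous_extend (fun t => hp _)
      (by simp [per_add h z e0_mem]) (by rw [p.extend_one, p.extend_zero]; simp [e0])⟩
  obtain ⟨A, g, hg, sA, eg, -⟩ := Anb49.anbStmt M dM Γ γ hM (sΓ.trans hd.sub) hγ
  have e : g '' {y | y 0 = 0} = Γ := by
    rw [← (Ann83.ann_loop hg (c := 0) (by simp)).img, ← hγ.img]
    simp only [eg]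
  have sA' : A ⊆ S := by
    have pA := bnd_pre hg (I := Icc (-1) 1) (fun t ht => abs_le.2 ht) (convex_Icc _ _)
    have eA : bnd g (Icc (-1) 1) = A := by
      rw [← hg.img]; simp only [bnd, abs_le, mem_Icc]
    exact hd.subset (eA ▸ pA) sA (x := γ 0) (hg.img ▸ ⟨![0, 0], by simp, eg 0⟩)
      (sΓ (hγ.img ▸ ⟨0, rfl⟩))
  obtain ⟨A', B, k, hk, un, it, sB, cB, sub⟩ := cut hS hg sA' (e ▸ cΓ)
  have l1 := Ann83.ann_loop hk (c := 1) (by simp)
  have l2 := Ann83.ann_loop hk (c := -1) (by simp)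
  have dj : Disjoint (k '' {y | y 0 = 1}) (k '' {y | y 0 = -1}) := disjoint_left.2 (by
    rintro _ ⟨y, hy, rfl⟩ ⟨y', hy', q⟩
    have hy : y 0 = 1 := hy
    have hy' : y' 0 = -1 := hy'
    have := ((hk.fib y' y (by simp [hy']) (by simp [hy])).1 q).1
    linarith)
  have cl : ∀ a b : ℝ, -1 ≤ a → b ≤ 1 → IsClosed (bnd k (Icc a b)) := fun a b ha hb =>
    (bnd_cpt hk ha hb).isClosed
  have eA : bnd k (Icc (-1) 1) = A' := by
    rw [← hk.img]; simp only [bnd, abs_le, mem_Icc]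
  have r := rel h hr hc ht (eA ▸ cl _ _ le_rfl le_rfl) sB.cpt.isClosed
    (by simpa [bnd] using cl 1 1 (by norm_num) le_rfl)
    (by simpa [bnd] using cl (-1) (-1) le_rfl (by norm_num)) un it dj ⟨_, ![1, 0], rfl, rfl⟩
    ⟨_, ![-1, 0], rfl, rfl⟩ (eA ▸ bnd_pre hk (fun t ht => abs_le.2 ht) (convex_Icc _ _)) cB.2
    (e ▸ sub) hω nω fun κ => hB B _ _ _ _ κ sB dj l1 l2
  obtain ⟨f, hf, e1, e2 | e2⟩ := hA B _ _ _ _ sB dj cB r l1 l2
  · obtain ⟨w, L⟩ := glue (ε := 1) (by simp) hk hf un it e1 (by simpa using e2)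
    exact fin (Or.inl rfl) L h hr hc.2
  · obtain ⟨w, L⟩ := glue (ε := -1) (by simp) hk hf un it e1 (by simpa using e2)
    exact fin (Or.inr rfl) L h hr hc.2

/-- the invariant component and its image (`Rz42.exists_tor` with more output) -/
lemma exists_tor (hL : LevStmt) (hI : IncStmt) (h : Per {0, 1} H) (c : ℝ) {δ : ℝ} (hδ : 0 < δ) :
    ∃ C M dM : Set V, Srf C ∅ ∧ C ⊆ H '' {x | |x 2 - c| < δ} ∧ IsConnected (H ⁻¹' C) ∧
      (∀ c : V → V → Z2, Coc C c → Tr (H ⁻¹' C) fun x y => c (H x) (H y)) ∧ Mf M dM ∧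
      Clop dM C := by
  obtain ⟨A, B, η, hη, st, hA, hB, hn⟩ := exists_st hL hI h c hδ
  set Ut : Set V := {x | |x 2 - c| < δ} with hUt
  have pre : H ⁻¹' (H '' Ut) = Ut := by
    refine Subset.antisymm ?_ (subset_preimage_image _ _)
    rintro x ⟨y, hy, e⟩
    have := lat_two ((h.fib _ _).1 e)
    show |x 2 - c| < δ
    rwa [← sub_eq_zero.1 this]
  have lin : IsLinearMap ℝ fun x : V => x 2 := ⟨fun _ _ => rfl, fun _ _ => rfl⟩
  have cvx : ∀ a b : ℝ, Convex ℝ {x : V | a < x 2 ∧ x 2 < b} := fun a b =>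
    (convex_halfSpace_gt lin a).inter (convex_halfSpace_lt lin b)
  have cU : Convex ℝ Ut := by
    convert cvx (c - δ) (c + δ) using 1
    ext x
    simp only [hUt, mem_ofPred_eq, abs_lt]
    constructor <;> rintro ⟨a, b⟩ <;> constructor <;> linarith
  have lp : LPC (H ⁻¹' A ∩ H ⁻¹' B) := lpc_pre h st.spl.lcv.lpc
  set ε := max η 0 with hε
  have e1 : η ≤ ε := le_max_left _ _
  have e2 : 0 ≤ ε := le_max_right _ _
  have e3 : ε < δ := max_lt hη hδ
  have D : Dat Ut (H ⁻¹' A) (H ⁻¹' B) {x : V | c - δ < x 2 ∧ x 2 < c - ε}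
      {x : V | c + ε < x 2 ∧ x 2 < c + δ} ![0, 0, c - (ε + δ) / 2] ![0, 0, c + (ε + δ) / 2]
      (latG {0, 1}) := by
    refine ⟨isOpen_lt (by fun_prop) continuous_const, cU, by rw [← preimage_union, st.spl.union, pre],
      ?_, ?_, fun x hx => (lp.clop x).mem (mem_connectedComponentIn hx), (cvx _ _).isPreconnected,
      (cvx _ _).isPreconnected, fun x hx => ⟨?_, fun k => ?_⟩, fun x hx => ⟨?_, fun k => ?_⟩,
      fun l hl x => by rw [mem_preimage, per_add h x hl]; rfl,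
      fun l hl x => by rw [mem_preimage, per_add h x hl]; rfl, fun l hl => ?_, fun l hl => ?_⟩
    · rw [← pre]; exact st.spl.clA.preimage h.cont
    · rw [← pre]; exact st.spl.clB.preimage h.cont
    · show |x 2 - c| < δ
      exact abs_lt.2 ⟨by linarith [hx.1], by linarith [hx.2]⟩
    · linarith [hA x k, hx.2]
    · show |x 2 - c| < δ
      exact abs_lt.2 ⟨by linarith [hx.1], by linarith [hx.2]⟩
    · linarith [hB x k, hx.1]
    · have : (![0, 0, c - (ε + δ) / 2] + l : V) 2 = c - (ε + δ) / 2 := by simp [lat_two hl]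
      exact ⟨by rw [this]; linarith, by rw [this]; linarith⟩
    · have : (![0, 0, c + (ε + δ) / 2] + l : V) 2 = c + (ε + δ) / 2 := by simp [lat_two hl]
      exact ⟨by rw [this]; linarith, by rw [this]; linarith⟩
  obtain ⟨x, hx, inv⟩ := D.exists_inv
  have cT := lp.clop x
  set T := connectedComponentIn (H ⁻¹' A ∩ H ⁻¹' B) x with hT
  have pT : H ⁻¹' (H '' T) = T := by
    refine Subset.antisymm ?_ (subset_preimage_image _ _)
    rintro y ⟨z, hz, e⟩
    simpa using inv _ ((h.fib _ _).1 e.symm) z hz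
  have sU : A ∩ B ⊆ H '' Ut := fun y hy => st.spl.subA hy.1
  have cC : Clop (A ∩ B) (H '' T) := by
    refine clop_of (image_subset_iff.2 cT.sub) ?_ fun y hy hy' => ?_
    · rintro _ ⟨y, hy, rfl⟩
      exact push h.opn (by rw [pT]; exact cT.mem hy)
    · obtain ⟨z, -, rfl⟩ := sU hy
      exact push h.opn (by
        rw [preimage_compl, pT]; exact cT.notMem hy fun k => hy' ⟨z, k, rfl⟩)
  refine ⟨H '' T, A, A ∩ B, ?_, cC.sub.trans sU, ?_, fun g hg => ?_, st.spl.mf, cC⟩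
  · have := st.srf
    rw [union_empty] at this
    simpa using Srf.clop this cC
  · rw [pT]; exact isConnected_connectedComponentIn_iff.2 hx
  · refine Rg3.tr_cover h (cC.lpc st.spl.lcv.lpc) cU (fun y hy => pre.subset (sU (cC.sub hy)))
      (mapsTo_image H Ut) (fun y p hp k => ?_) hg
    obtain ⟨G, hG⟩ := hn y p (fun t => cC.sub (hp t)) k
    have k : range G ⊆ H '' T := cC.subset (isPreconnected_range G.continuous)
      (range_subset_iff.2 hG) (x := y) ⟨(0, 0), by simp⟩ (by simpa using hp 0)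
    exact ⟨G, fun t => k ⟨t, rfl⟩⟩

/-- a PL torus near every level of a periodic embedding -/
theorem rung_of (hL : LevStmt) (hI : IncStmt) (hA : AnnRec) (hN : Nonsep) (hB : Bdsum)
    (h : Per {0, 1} H) (c : ℝ) {δ : ℝ} (hδ : 0 < δ) : ∃ u, Rung ∅ {0, 1} H c δ u := by
  obtain ⟨C, M, dM, h1, h2, h3, h4, h5, h6⟩ := exists_tor hL hI h c hδ
  obtain ⟨u, cu, tu, eu⟩ := tor hA hN hB h h1 (h2.trans (image_subset_range _ _)) h3 h4 h5 h6
  have no : ∀ x, x ∉ out ∅ := fun x ⟨i, hi, _⟩ => absurd hi (Finset.notMem_empty i)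
  refine ⟨u, cu, fun y y' e => ?_, eu, fun y k => (no _ k).elim, fun y _ => no _, fun y => ?_,
    fun y _ => ⟨1, one_pos, (tu.pl (‖y‖ + 1)).mono fun z hz => ?_⟩⟩
  · have k := (tu.fib y y').1 (by simp only [e])
    have hl : lv 0 (y - y') ∈ lat {0, 1} := fun i => by
      fin_cases i
      · exact ⟨fun _ => k 0, fun q => absurd (by decide) q⟩
      · exact ⟨fun _ => k 1, fun q => absurd (by decide) q⟩
      · exact ⟨fun q => absurd q (by decide), fun _ => rfl⟩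
    have := eu y' _ hl
    rw [add_sub_cancel, e, left_eq_add] at this
    refine sub_eq_zero.1 (funext fun i => ?_)
    fin_cases i
    · exact congrFun this 0
    · exact congrFun this 1
  · obtain ⟨x, hx, e⟩ := h2 (tu.img ▸ ⟨y, rfl⟩ : H (u y) ∈ C)
    rwa [← sub_eq_zero.1 (lat_two ((h.fib _ _).1 e))]
  · rw [mem_closedBall_zero_iff]
    have := norm_le_norm_add_norm_sub' z y
    rw [mem_ball, dist_eq_norm] at hz
    linarith

/-- **(RUNG0)** -/
theorem rung0 (hL : LevStmt) (hI : IncStmt) (hA : AnnRec) (hN : Nonsep) (hB : Bdsum) : Rung0Stmt :=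
  fun _ _ hp _ hh c _ hδ => rung_of hL hI hA hN hB (Lad50.per_comp_qq' hp hh) c hδ

end Crest.Agent.X212.Tor42
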