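import Crest.Agent.X212.Tor42.Cut
import Crest.Agent.X212.Rg3.Com

/-!
# X212 / T layer, TOR (helper42), part 2: cocycles on a surface with acyclic `ℤ²`-cover
-/

set_option autoImplicit false

open Set Filter Topology Metric

namespace Crest.Agent.X212.Tor42

open Crest.Agent.R096 Crest.Agent.R096.Ce_537 Crest.Agent.X212.Prd34 Crest.Agent.X212.Srf12
  Crest.Agent.X212.Lev33

variable {H : V → V} {S : Set V}

/-- the generators -/
def e0 : V := ![1, 0, 0]
def e1 : V := ![0, 1, 0]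

lemma vec_mem (m n : ℤ) : (m : ℝ) • e0 + (n : ℝ) • e1 ∈ lat {0, 1} := fun i => by
  fin_cases i
  · exact ⟨fun _ => ⟨m, by simp [e0, e1]⟩, fun k => absurd (by decide) k⟩
  · exact ⟨fun _ => ⟨n, by simp [e0, e1]⟩, fun k => absurd (by decide) k⟩
  · exact ⟨fun k => absurd k (by decide), fun _ => by simp [e0, e1]⟩

lemma e0_mem : e0 ∈ lat {0, 1} := by simpa using vec_mem 1 0
lemma e1_mem : e1 ∈ lat {0, 1} := by simpa using vec_mem 0 1

lemma eq_vec {l : V} (hl : l ∈ lat {0, 1}) : ∃ m n : ℤ, l = (m : ℝ) • e0 + (n : ℝ) • e1 := by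
  obtain ⟨m, hm⟩ := (hl 0).1 (by decide)
  obtain ⟨n, hn⟩ := (hl 1).1 (by decide)
  have := (hl 2).2 (by decide)
  refine ⟨m, n, funext fun i => ?_⟩
  fin_cases i <;> simp [e0, e1, hm, hn, this]

/-- the class of a cocycle -/
def Cls (H : V → V) (S : Set V) (c : V → V → Z2) (a : Z2 × Z2) : Prop :=
  ∃ b, Prim (H ⁻¹' S) (fun x y => c (H x) (H y)) b ∧ ∀ z ∈ H ⁻¹' S,
    b (z + e0) = a.1 * b z ∧ b (z + e1) = a.2 * b z

lemma Cls.mul {c c' : V → V → Z2} {a a' : Z2 × Z2} (h : Cls H S c a) (h' : Cls H S c' a') :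
    Cls H S (fun x y => c x y * c' x y) (a * a') := by
  obtain ⟨b, h1, h2⟩ := h
  obtain ⟨b', h1', h2'⟩ := h'
  refine ⟨_, h1.mul h1', fun z hz => ⟨?_, ?_⟩⟩
  · rw [(h2 z hz).1, (h2' z hz).1]; exact mul_mul_mul_comm _ _ _ _
  · rw [(h2 z hz).2, (h2' z hz).2]; exact mul_mul_mul_comm _ _ _ _

lemma mem_add (h : Per {0, 1} H) {z l : V} (hz : z ∈ H ⁻¹' S) (hl : l ∈ lat {0, 1}) :
    z + l ∈ H ⁻¹' S := by rwa [mem_preimage, per_add h z hl]

lemma exists_cls (h : Per {0, 1} H) (hc : IsConnected (H ⁻¹' S)) {c : V → V → Z2}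
    (ht : Tr (H ⁻¹' S) fun x y => c (H x) (H y)) : ∃ a, Cls H S c a := by
  obtain ⟨b, hb⟩ := ht
  obtain ⟨z0, h0⟩ := hc.1
  have key : ∀ l ∈ lat {0, 1}, ∀ z ∈ H ⁻¹' S, b (z + l) = b (z0 + l) * (b z0)⁻¹ * b z :=
    fun l hl z hz => by
    have := hb.comp (f := fun z => z + l) (T := H ⁻¹' S) (by fun_prop) fun z hz => mem_add h hz hl
    simp only [per_add h _ hl] at this
    exact hb.uniq this hc.2 h0 hz
  exact ⟨(_, _), b, hb, fun z hz => ⟨key _ e0_mem z hz, key _ e1_mem z hz⟩⟩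

lemma Cls.tr (h : Per {0, 1} H) (hr : S ⊆ range H) {c : V → V → Z2} (hc : Cls H S c 1) :
    Tr S c := by
  obtain ⟨b, hb, k⟩ := hc
  have key : ∀ e ∈ lat {0, 1}, (∀ z ∈ H ⁻¹' S, b (z + e) = b z) → ∀ m : ℤ, (m : ℝ) • e ∈ lat {0, 1} ∧
      ∀ z ∈ H ⁻¹' S, b (z + (m : ℝ) • e) = b z := fun e he hb m => by
    induction m using Int.induction_on with
    | zero => simpa using lat_zero
    | succ n ih =>
      push_cast at ih ⊢
      rw [add_smul, one_smul]
      exact ⟨lat_add ih.1 he, fun z hz => by rw [← add_assoc, hb _ (mem_add h hz ih.1), ih.2 z hz]⟩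
    | pred n ih =>
      push_cast at ih ⊢
      rw [sub_smul, one_smul]
      refine ⟨lat_sub ih.1 he, fun z hz => ?_⟩
      rw [← hb _ (mem_add h hz (lat_sub ih.1 he)), ← ih.2 z hz]
      congr 1; abel
  refine ⟨_, Rg3.prim_desc h hr hb fun z hz l hl => ?_⟩
  obtain ⟨m, n, rfl⟩ := eq_vec hl
  have a := key e0 e0_mem (fun z hz => by simpa using (k z hz).1) m
  have a' := key e1 e1_mem (fun z hz => by simpa using (k z hz).2) n
  rw [← add_assoc, a'.2 _ (mem_add h hz a.1), a.2 z hz]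

lemma dep (a b c : Z2 × Z2) : a = 1 ∨ b = 1 ∨ c = 1 ∨ a * b = 1 ∨ a * c = 1 ∨ b * c = 1 ∨
    a * b * c = 1 := by
  revert a b c; decide

/-- **(COH)** -/
theorem coh (h : Per {0, 1} H) (hr : S ⊆ range H) (hc : IsConnected (H ⁻¹' S))
    (ht : ∀ c : V → V → Z2, Coc S c → Tr (H ⁻¹' S) fun x y => c (H x) (H y))
    {a b c : V → V → Z2} (ha : Coc S a) (hb : Coc S b) (hc' : Coc S c) :
    Tr S a ∨ Tr S b ∨ Tr S c ∨ Tr S (fun x y => a x y * b x y) ∨ Tr S (fun x y => a x y * c x y) ∨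
      Tr S (fun x y => b x y * c x y) ∨ Tr S (fun x y => a x y * b x y * c x y) := by
  obtain ⟨α, k1⟩ := exists_cls h hc (ht a ha)
  obtain ⟨β, k2⟩ := exists_cls h hc (ht b hb)
  obtain ⟨γ, k3⟩ := exists_cls h hc (ht c hc')
  exact (dep α β γ).imp (fun e => (e ▸ k1).tr h hr) (Or.imp (fun e => (e ▸ k2).tr h hr)
    (Or.imp (fun e => (e ▸ k3).tr h hr) (Or.imp (fun e => (e ▸ k1.mul k2).tr h hr)
    (Or.imp (fun e => (e ▸ k1.mul k3).tr h hr) (Or.imp (fun e => (e ▸ k2.mul k3).tr h hr)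
    fun e => (e ▸ (k1.mul k2).mul k3).tr h hr)))))

lemma cancel_left {T : Set V} {a b : V → V → Z2} (h : Tr T fun x y => a x y * b x y)
    (ha : Tr T a) : Tr T b :=
  (ha.inv.mul h).congr (geq_of_eq fun _ _ _ _ => inv_mul_cancel_left _ _)

lemma cancel_right {T : Set V} {a b : V → V → Z2} (h : Tr T fun x y => a x y * b x y)
    (hb : Tr T b) : Tr T a :=
  (h.mul hb.inv).congr (geq_of_eq fun _ _ _ _ => mul_inv_cancel_right _ _)

/-- **(REL)** -/
theorem rel (h : Per {0, 1} H) (hr : S ⊆ range H) (hc : IsConnected (H ⁻¹' S))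
    (ht : ∀ c : V → V → Z2, Coc S c → Tr (H ⁻¹' S) fun x y => c (H x) (H y))
    {A B G G' Γ : Set V} (cA : IsClosed A) (cB : IsClosed B) (cG : IsClosed G) (cG' : IsClosed G')
    (un : A ∪ B = S) (it : A ∩ B = G ∪ G') (dj : Disjoint G G') (nG : G.Nonempty)
    (nG' : G'.Nonempty) (pA : IsPreconnected A) (pB : IsPreconnected B) (hΓ : Γ ⊆ A)
    {ω : V → V → Z2} (hω : Coc S ω) (nω : ¬ Tr Γ ω)
    (bd : ∀ κ : V → V → Z2, Coc B κ → Tr G κ → Tr G' κ) : H1Rel B G := by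
  classical
  have sA : G ∪ G' ⊆ A := it ▸ inter_subset_left
  have sB : G ∪ G' ⊆ B := it ▸ inter_subset_right
  refine h1rel_of (subset_union_left.trans sB) fun κ hκ tG => ?_
  obtain ⟨b0, hb0⟩ := Tr.union (cG.relCl _) (cG'.relCl _) tG (bd κ hκ tG)
    (by rw [dj.inter_eq]; exact isPreconnected_empty)
  obtain ⟨κ', k1, k2, k3⟩ := Coc.glue (cA.relCl _) (cB.relCl _) (prim_cob A b0).coc hκ (by
    rw [it]
    intro x hx
    filter_upwards [hb0 x hx] with y hy
    rw [hy, inv_mul_cancel_left])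
  let β : V → Z2 := fun x => if x ∈ G then Multiplicative.ofAdd 1 else 1
  obtain ⟨τ, t1, t2, t3⟩ := Coc.glue (cA.relCl _) (cB.relCl _) (prim_cob A β).coc
    (tr_one B).choose_spec.coc (by
    rw [it]
    have : LCo (G ∪ G') β := LCo.union (cG.relCl _) (cG'.relCl _)
      (fun x hx => by
        filter_upwards [self_mem_nhdsWithin] with y hy
        simp only [β, if_pos hx, if_pos hy])
      fun x hx => by
        filter_upwards [self_mem_nhdsWithin] with y hy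
        simp only [β, if_neg (disjoint_right.1 dj hx), if_neg (disjoint_right.1 dj hy)]
    intro x hx
    filter_upwards [this x hx] with y hy
    rw [hy, inv_mul_cancel])
  rw [un] at k1 t1
  have aκ : Tr Γ κ' := (Tr.congr ⟨_, prim_cob A b0⟩ k2.symm).mono hΓ
  have aτ : Tr Γ τ := (Tr.congr ⟨_, prim_cob A β⟩ t2.symm).mono hΓ
  have bτ : Tr B τ := (tr_one B).congr t3.symm
  have hA : A ⊆ S := un ▸ subset_union_left
  have hB : B ⊆ S := un ▸ subset_union_right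
  have hΓS := hΓ.trans hA
  have nτ : ¬ Tr S τ := by
    rintro ⟨b, hb⟩
    obtain ⟨p, hp⟩ := nG
    obtain ⟨q, hq⟩ := nG'
    have e1 := (prim_one_iff.1 ((hb.mono hB).congr t3)).eq pB (sB (Or.inl hp)) (sB (Or.inr hq))
    have e2 := (prim_cob A β).uniq ((hb.mono hA).congr t2) pA (sA (Or.inr hq)) (sA (Or.inl hp))
    simp only [β, if_pos hp, if_neg (disjoint_right.1 dj hq), inv_one, mul_one, e1,
      left_eq_mul] at e2
    exact absurd e2 (by decide)
  rcases coh h hr hc ht t1 hω k1 with k | k | k | k | k | k | k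
  · exact (nτ k).elim
  · exact (nω (k.mono hΓS)).elim
  · exact (k.mono hB).congr k3
  · exact (nω (cancel_left (k.mono hΓS) aτ)).elim
  · exact (cancel_left (k.mono hB) bτ).congr k3
  · exact (nω (cancel_right (k.mono hΓS) aκ)).elim
  · exact (nω (cancel_left (cancel_right (k.mono hΓS) aκ) aτ)).elim

end Crest.Agent.X212.Tor42
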