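import Crest.Agent.X212.Ann83.Main
import Crest.Agent.X212.Srf12.Iod
import Crest.Agent.X212.Lev33.Nice

/-!
# X212 / T layer, TOR (helper42), part 1: cutting a closed surface along an annulus
-/

set_option autoImplicit false
set_option linter.unusedSectionVars false

open Set Filter Topology Metric

namespace Crest.Agent.X212.Tor42

open Crest.Agent.R096 Crest.Agent.R096.Ce_537 Crest.Agent.X212.Prd34 Crest.Agent.X212.Srf12
  Crest.Agent.X212.Lev33 Crest.Agent.X212.Lad50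

variable {E : Type*} [NormedAddCommGroup E] [NormedSpace ℝ E] [FiniteDimensional ℝ E]
  {S A : Set E} {g : P → E}

lemma eta (y : P) : ![y 0, y 1] = y := by ext i; fin_cases i <;> rfl

/-- the band over `I` -/
def bnd (g : P → E) (I : Set ℝ) : Set E := g '' {y | y 0 ∈ I}

lemma cont_of_pl (h : ∀ R : ℝ, PLOn g {y | |y 0| ≤ 1 ∧ |y 1| ≤ R}) :
    ContinuousOn g {y | |y 0| ≤ 1} := fun y hy =>
  ((h (|y 1| + 1)).1 y ⟨hy, by linarith⟩).mono_of_mem_nhdsWithin (by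
    have : ∀ᶠ z : P in 𝓝 y, |z 1| < |y 1| + 1 :=
      (isOpen_lt (by fun_prop) continuous_const).mem_nhds (lt_add_one |y 1|)
    filter_upwards [self_mem_nhdsWithin, mem_nhdsWithin_of_mem_nhds this] with z a b
    exact ⟨a, b.le⟩)

lemma mem_bnd (h : Ann A g) {I : Set ℝ} (hI : ∀ t ∈ I, |t| ≤ 1) {y : P} (hy : |y 0| ≤ 1) :
    g y ∈ bnd g I ↔ y 0 ∈ I :=
  ⟨fun ⟨z, hz, e⟩ => ((h.fib z y (hI _ hz) hy).1 e).1 ▸ hz, fun k => ⟨y, k, rfl⟩⟩

lemma bnd_sub (h : Ann A g) {I : Set ℝ} (hI : ∀ t ∈ I, |t| ≤ 1) : bnd g I ⊆ A :=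
  h.img ▸ image_mono fun _ hy => hI _ hy

lemma bnd_mono {I J : Set ℝ} (h : I ⊆ J) : bnd g I ⊆ bnd g J := image_mono fun _ hy => h hy

lemma bnd_cpt (h : Ann A g) {a b : ℝ} (ha : -1 ≤ a) (hb : b ≤ 1) : IsCompact (bnd g (Icc a b)) := by
  have : bnd g (Icc a b) = g '' Icc ![a, 0] ![b, 1] := by
    refine Subset.antisymm ?_ (image_mono fun y hy => ⟨hy.1 0, hy.2 0⟩)
    rintro _ ⟨y, hy, rfl⟩
    have k : |y 0| ≤ 1 := abs_le.2 ⟨ha.trans hy.1, hy.2.trans hb⟩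
    refine ⟨![y 0, Int.fract (y 1)], ⟨fun i => ?_, fun i => ?_⟩,
      (h.fib ![y 0, Int.fract (y 1)] y k k).2 ⟨rfl, -⌊y 1⌋, by simp⟩⟩
    · fin_cases i
      exacts [hy.1, Int.fract_nonneg _]
    · fin_cases i
      exacts [hy.2, (Int.fract_lt_one _).le]
  rw [this]
  exact isCompact_Icc.image_of_continuousOn ((cont_of_pl h.pl).mono fun y hy =>
    abs_le.2 ⟨ha.trans (hy.1 0), (hy.2 0).trans hb⟩)

lemma bnd_pre (h : Ann A g) {I : Set ℝ} (hI : ∀ t ∈ I, |t| ≤ 1) (hc : Convex ℝ I) :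
    IsPreconnected (bnd g I) :=
  (hc.linear_preimage (LinearMap.proj 0 : P →ₗ[ℝ] ℝ)).isPreconnected.image _
    ((cont_of_pl h.pl).mono fun _ hy => hI _ hy)

lemma inj_near (h : Ann A g) {W : Set P} (hW : ∀ y ∈ W, |y 0| ≤ 1) {s : ℝ}
    (hs : ∀ y ∈ W, |y 1 - s| < 1 / 2) : InjOn g W := fun y hy z hz e => by
  obtain ⟨e0, m, hm⟩ := (h.fib y z (hW y hy) (hW z hz)).1 e
  have a := abs_lt.1 (hs y hy)
  have b := abs_lt.1 (hs z hz)
  have : |(m : ℝ)| < 1 := by rw [← hm, abs_lt]; constructor <;> linarith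
  have : m = 0 := Int.abs_lt_one_iff.1 (by exact_mod_cast this)
  rw [this, Int.cast_zero, sub_eq_zero] at hm
  rw [← eta y, ← eta z, e0, hm]

/-- the annulus is open in the surface -/
lemma opn {dS : Set E} (hS : Srf S dS) (h : Ann A g) (hs : A ⊆ S) {w : P} (hw : |w 0| < 1)
    {W : Set P} (hW : W ∈ 𝓝 w) : g '' W ∈ 𝓝[S] (g w) := by
  have o : IsOpen (interior W ∩ {y : P | |y 0| < 1 ∧ |y 1 - w 1| < 1 / 2}) :=
    isOpen_interior.inter (IsOpen.and (isOpen_lt (by fun_prop) continuous_const)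
      (isOpen_lt (by fun_prop) continuous_const))
  exact mem_of_superset (hS.of_inj finrank_two o ((cont_of_pl h.pl).mono fun y hy => hy.2.1.le)
    (inj_near h (fun y hy => hy.2.1.le) fun y hy => hy.2.2)
    (fun y hy => hs (h.img ▸ ⟨y, hy.2.1.le, rfl⟩))
    ⟨mem_interior_iff_mem_nhds.2 hW, hw, by simp⟩).2
    (image_mono (inter_subset_left.trans interior_subset))

/-- small discs at an interior point -/
lemma small {dS : Set E} (hS : Srf S dS) {x : E} (hx : x ∈ S) (hx' : x ∉ dS) {W : Set E}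
    (hW : W ∈ 𝓝 x) : ∃ D Γ, IsBall 2 D Γ ∧ D ⊆ S ∩ W ∧ D ∈ 𝓝[S] x ∧ x ∉ Γ := by
  obtain ⟨D, Γ, ⟨a, ha⟩, h2, h3, h4⟩ := hS.loc x hx
  have h1 : x ∈ a.f '' ball 0 1 := by
    rw [← Cb_609.diff_eq_image a ha]
    exact ⟨mem_of_mem_nhdsWithin hx h3, fun k => hx' (h4.2 k)⟩
  obtain ⟨w, hw, rfl⟩ := h1
  have hc : cube 2 ∈ 𝓝 w := mem_of_superset (isOpen_ball.mem_nhds hw) ball_subset_closedBall
  obtain ⟨r, hr, hb⟩ := Metric.nhds_basis_closedBall.mem_iff.1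
    (inter_mem hc ((a.pf.1.continuousAt hc) hW))
  have m : ∀ y ∈ cube 2, w + r • y ∈ closedBall w r := fun y hy => by
    rw [mem_closedBall, dist_eq_norm, add_sub_cancel_left, norm_smul, Real.norm_eq_abs,
      abs_of_pos hr]
    nlinarith [mem_closedBall_zero_iff.1 hy]
  have inj : InjOn (fun y => a.f (w + r • y)) (cube 2) := fun y hy z hz e =>
    smul_right_injective _ hr.ne' (add_left_cancel (a.injOn (hb (m y hy)).1 (hb (m z hz)).1 e))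
  have hD := (isBall_cube 2).image_injOn (f := fun y => a.f (w + r • y))
    (a.pf.comp (pl_add (plOn_const _ _) (pl_smul _ (plOn_id _))) fun y hy => (hb (m y hy)).1) inj
  have s1 : (fun y => a.f (w + r • y)) '' cube 2 ⊆ S ∩ W := by
    rintro _ ⟨y, hy, rfl⟩
    exact ⟨h2 (a.mf (hb (m y hy)).1), (hb (m y hy)).2⟩
  have n : a.f w ∉ (fun y => a.f (w + r • y)) '' sph 2 := by
    rintro ⟨y, hy, e⟩
    have : y = 0 := inj (sph_subset_cube hy) (zero_mem_cube 2) (by simpa using e)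
    simp [this, sph] at hy
  exact ⟨_, _, hD, s1, (hS.disc_int hD (fun y hy => (s1 hy).1) ⟨0, zero_mem_cube 2, by simp⟩ n).2, n⟩

lemma half (h : Ann A g) : Ann (bnd g (Icc (-(1 / 2)) (1 / 2))) fun y => g ![y 0 / 2, y 1] := by
  have k : ∀ y : P, |y 0| ≤ 1 → |y 0 / 2| ≤ 1 := fun y hy => by
    rw [abs_le] at *; constructor <;> linarith [hy.1, hy.2]
  refine ⟨fun R => (h.pl R).comp (pl_vec2 ((pl_mul (1 / 2) (pl_coord 0 _)).congr
    fun y _ => by ring) (pl_coord 1 _)) fun y hy => ⟨k y hy.1, hy.2⟩, Subset.antisymm ?_ ?_,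
    fun y y' h1 h2 => (h.fib _ _ (k y h1) (k y' h2)).trans (and_congr_left' ?_)⟩
  · rintro _ ⟨y, hy, rfl⟩
    have := abs_le.1 (show |y 0| ≤ 1 from hy)
    exact ⟨_, ⟨show _ ≤ y 0 / 2 by linarith, show y 0 / 2 ≤ _ by linarith⟩, rfl⟩
  · rintro _ ⟨y, hy, rfl⟩
    refine ⟨![2 * y 0, y 1], abs_le.2 ⟨show _ ≤ 2 * y 0 by linarith [hy.1],
      show 2 * y 0 ≤ _ by linarith [hy.2]⟩, congrArg g ?_⟩
    ext i; fin_cases i <;> simp
  · show y 0 / 2 = y' 0 / 2 ↔ _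
    constructor <;> intro e <;> linarith

lemma half_end (g : P → E) (σ : ℝ) :
    (fun y : P => g ![y 0 / 2, y 1]) '' {y | y 0 = σ} = bnd g {σ / 2} := by
  refine Subset.antisymm ?_ ?_
  · rintro _ ⟨y, rfl, rfl⟩
    exact ⟨_, rfl, rfl⟩
  · rintro _ ⟨y, hy, rfl⟩
    refine ⟨![σ, y 1], rfl, congrArg g ?_⟩
    ext i; fin_cases i
    · exact (hy : y 0 = σ / 2).symm
    · rfl

lemma abs_Ioo {t : ℝ} (h : t ∈ Ioo (-(1 / 2) : ℝ) (1 / 2)) : |t| ≤ 1 :=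
  abs_le.2 ⟨by linarith [h.1], by linarith [h.2]⟩

lemma abs_Icc {t : ℝ} (h : t ∈ Icc (-(1 / 2) : ℝ) (1 / 2)) : |t| ≤ 1 :=
  abs_le.2 ⟨by linarith [h.1], by linarith [h.2]⟩

lemma abs_pt {σ : ℝ} (hσ : σ = 1 ∨ σ = -1) {t : ℝ} (h : t ∈ ({σ / 2} : Set ℝ)) : |t| ≤ 1 := by
  rw [(h : t = σ / 2), abs_le]
  rcases hσ with rfl | rfl <;> norm_num

/-- half discs at the new boundary -/
lemma half_disc (hS : Srf S ∅) (h : Ann A g) (hs : A ⊆ S) {σ : ℝ} (hσ : σ = 1 ∨ σ = -1) {x : E}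
    (hx : x ∈ bnd g {σ / 2}) : ∃ D Γ, IsBall 2 D Γ ∧ D ⊆ S \ bnd g (Ioo (-(1 / 2)) (1 / 2)) ∧
      D ∈ 𝓝[S \ bnd g (Ioo (-(1 / 2)) (1 / 2))] x ∧ x ∈ Γ := by
  obtain ⟨w, hw, rfl⟩ := hx
  have hw : w 0 = σ / 2 := hw
  have σ2 : σ * σ = 1 := by rcases hσ with rfl | rfl <;> norm_num
  let f : P → P := fun y => ![σ * (5 / 8 + 1 / 8 * y 0), w 1 + 1 / 8 * y 1]
  have b : ∀ y ∈ cube 2, (-1 ≤ y 0 ∧ y 0 ≤ 1) ∧ -1 ≤ y 1 ∧ y 1 ≤ 1 := fun y hy =>
    ⟨abs_le.1 (mem_cube.1 hy 0), abs_le.1 (mem_cube.1 hy 1)⟩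
  have m : ∀ y ∈ cube 2, |f y 0| ≤ 1 := fun y hy => by
    show |σ * (5 / 8 + 1 / 8 * y 0)| ≤ 1
    rw [abs_le]
    rcases hσ with rfl | rfl <;> constructor <;> linarith [b y hy]
  have m1 : ∀ y ∈ cube 2, |f y 1 - w 1| < 1 / 2 := fun y hy => by
    show |w 1 + 1 / 8 * y 1 - w 1| < 1 / 2
    rw [abs_lt]; constructor <;> linarith [b y hy]
  have hD := (isBall_cube 2).image_injOn (f := fun y => g (f y))
    ((h.pl (|w 1| + 1)).comp (pl_vec2 (pl_mul _ (pl_add (plOn_const _ _) (pl_mul _ (pl_coord 0 _))))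
      (pl_add (plOn_const _ _) (pl_mul _ (pl_coord 1 _)))) fun y hy => ⟨m y hy, by
        have := abs_lt.1 (m1 y hy)
        rw [abs_le]; constructor <;> linarith [le_abs_self (w 1), neg_abs_le (w 1)]⟩)
    fun y hy z hz e => by
      have := inj_near h (W := f '' cube 2) (s := w 1) (forall_mem_image.2 fun _ k => m _ k)
        (forall_mem_image.2 fun _ k => m1 _ k) ⟨y, hy, rfl⟩ ⟨z, hz, rfl⟩ e
      have e0 : σ * (5 / 8 + 1 / 8 * y 0) = σ * (5 / 8 + 1 / 8 * z 0) := congrFun this 0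
      have e1 : w 1 + 1 / 8 * y 1 = w 1 + 1 / 8 * z 1 := congrFun this 1
      rw [← eta y, ← eta z, show y 1 = z 1 by linarith, show y 0 = z 0 by
        rcases hσ with rfl | rfl <;> linarith]
  refine ⟨_, _, hD, ?_, ?_, ![-1, 0], mem_sph2.2 ⟨mem_cube.2 fun i => ?_, Or.inl (by simp)⟩,
    congrArg g ?_⟩
  · rintro _ ⟨y, hy, rfl⟩
    refine ⟨hs (h.img ▸ ⟨_, m y hy, rfl⟩), fun k => ?_⟩
    have : σ * (5 / 8 + 1 / 8 * y 0) ∈ Ioo (-(1 / 2) : ℝ) (1 / 2) :=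
      (mem_bnd h (fun _ => abs_Ioo) (m y hy)).1 k
    rcases hσ with rfl | rfl <;> linarith [this.1, this.2, b y hy]
  · have k : |w 0| < 1 := by rw [hw, abs_lt]; rcases hσ with rfl | rfl <;> norm_num
    filter_upwards [nhdsWithin_mono _ sdiff_subset (opn hS h hs k
      (closedBall_mem_nhds w (by norm_num : (0 : ℝ) < 1 / 8))), self_mem_nhdsWithin]
    rintro _ ⟨y, hy, rfl⟩ hn
    rw [mem_closedBall, dist_pi_le_iff (by norm_num)] at hy
    have a0 := abs_le.1 (show |y 0 - w 0| ≤ 1 / 8 from hy 0)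
    have a1 := abs_le.1 (show |y 1 - w 1| ≤ 1 / 8 from hy 1)
    have a2 : ¬ (-(1 / 2) < y 0 ∧ y 0 < 1 / 2) := fun q => hn.2 ⟨y, q, rfl⟩
    rw [not_and_or, not_lt, not_lt] at a2
    refine ⟨![8 * σ * y 0 - 5, 8 * (y 1 - w 1)], mem_cube.2 fun i => ?_, congrArg g ?_⟩
    · fin_cases i
      · show |8 * σ * y 0 - 5| ≤ 1
        rw [abs_le]
        rcases hσ with rfl | rfl <;> rcases a2 with a2 | a2 <;> constructor <;> linarith
      · show |8 * (y 1 - w 1)| ≤ 1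
        rw [abs_le]; constructor <;> linarith
    · ext i; fin_cases i
      · show σ * (5 / 8 + 1 / 8 * (8 * σ * y 0 - 5)) = y 0
        linear_combination y 0 * σ2
      · show w 1 + 1 / 8 * (8 * (y 1 - w 1)) = y 1
        ring
  · fin_cases i <;> simp
  · ext i; fin_cases i
    · show σ * (5 / 8 + 1 / 8 * (-1)) = w 0
      rw [hw]; ring
    · simp [f]

lemma split (h : Ann A g) {x : E} (hx : x ∈ bnd g (Icc (-(1 / 2)) (1 / 2)))
    (hn : x ∉ bnd g (Ioo (-(1 / 2)) (1 / 2))) : x ∈ bnd g {1 / 2} ∪ bnd g {-1 / 2} := by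
  obtain ⟨y, hy, rfl⟩ := hx
  have _ := h
  rcases hy.1.eq_or_lt with a | a
  · exact Or.inr ⟨y, show y 0 = -1 / 2 by linarith, rfl⟩
  rcases hy.2.eq_or_lt with b | b
  · exact Or.inl ⟨y, b, rfl⟩
  · exact (hn ⟨y, ⟨a, b⟩, rfl⟩).elim

lemma isClosed_rest (hS : Srf S ∅) (h : Ann A g) (hs : A ⊆ S) :
    IsClosed (S \ bnd g (Ioo (-(1 / 2)) (1 / 2))) := by
  refine isClosed_of_closure_subset fun x hx => ⟨closure_minimal sdiff_subset hS.cpt.isClosed hx, ?_⟩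
  rintro ⟨w, hw, rfl⟩
  have := opn hS h hs (w := w) (abs_lt.2 ⟨by linarith [hw.1], by linarith [hw.2]⟩)
    ((isOpen_Ioo.preimage (continuous_apply 0)).mem_nhds hw)
  obtain ⟨O, hO, k⟩ := mem_nhdsWithin_iff_exists_mem_nhds_inter.1 this
  obtain ⟨z, h1, h2⟩ := mem_closure_iff_nhds.1 hx O hO
  exact h2.2 (k ⟨h1, h2.1⟩)

lemma end_sub (h : Ann A g) (hs : A ⊆ S) {σ : ℝ} (hσ : σ = 1 ∨ σ = -1) :
    bnd g {σ / 2} ⊆ S \ bnd g (Ioo (-(1 / 2)) (1 / 2)) := by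
  rintro _ ⟨y, hy, rfl⟩
  refine ⟨hs (h.img ▸ ⟨y, abs_pt hσ hy, rfl⟩), fun k => ?_⟩
  have := (mem_bnd h (fun _ => abs_Ioo) (abs_pt hσ hy)).1 k
  rw [(hy : y 0 = σ / 2)] at this
  rcases hσ with rfl | rfl <;> linarith [this.1, this.2]

lemma end_sub' {σ : ℝ} (hσ : σ = 1 ∨ σ = -1) : bnd g {σ / 2} ⊆ bnd g (Icc (-(1 / 2)) (1 / 2)) :=
  bnd_mono fun t ht => by
    rw [(ht : t = σ / 2)]
    rcases hσ with rfl | rfl <;> constructor <;> norm_num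

lemma srf_rest (hS : Srf S ∅) (h : Ann A g) (hs : A ⊆ S) :
    Srf (S \ bnd g (Ioo (-(1 / 2)) (1 / 2))) (bnd g {1 / 2} ∪ bnd g {-1 / 2}) := by
  refine ⟨hS.cpt.of_isClosed_subset (isClosed_rest hS h hs) sdiff_subset,
    union_subset (end_sub h hs (Or.inl rfl)) (end_sub h hs (Or.inr rfl)), fun x hx => ?_⟩
  by_cases k : x ∈ bnd g {1 / 2} ∪ bnd g {-1 / 2}
  · obtain ⟨D, Γ, a, b, c, d⟩ : ∃ D Γ, IsBall 2 D Γ ∧ D ⊆ S \ bnd g (Ioo (-(1 / 2)) (1 / 2)) ∧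
        D ∈ 𝓝[S \ bnd g (Ioo (-(1 / 2)) (1 / 2))] x ∧ x ∈ Γ :=
      k.elim (half_disc hS h hs (Or.inl rfl)) (half_disc hS h hs (Or.inr rfl))
    exact ⟨D, Γ, a, b, c, iff_of_true k d⟩
  · obtain ⟨D, Γ, a, b, c, d⟩ := small hS hx.1 (fun q => q) ((bnd_cpt h (a := -(1 / 2)) (b := 1 / 2)
      (by norm_num) (by norm_num)).isClosed.isOpen_compl.mem_nhds fun q => k (split h q hx.2))
    exact ⟨D, Γ, a, fun y hy => ⟨(b hy).1, fun q => (b hy).2 (bnd_mono Ioo_subset_Icc_self q)⟩,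
      nhdsWithin_mono _ sdiff_subset c, iff_of_false k d⟩

lemma conn_rest (hS : Srf S ∅) (h : Ann A g) (hs : A ⊆ S) (hc : IsPreconnected (S \ bnd g {0})) :
    IsPreconnected (S \ bnd g (Ioo (-(1 / 2)) (1 / 2))) := by
  classical
  set B := S \ bnd g (Ioo (-(1 / 2)) (1 / 2)) with hB
  refine isPreconnected_of_forall_constant fun f hf x hx y hy => ?_
  have lf : LCo B f := fun z hz =>
    ((hf z hz).eventually (mem_nhds_discrete.2 rfl)).mono fun _ e => e.symm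
  have i1 : ∀ t ∈ Icc (0 : ℝ) (1 / 2), |t| ≤ 1 := fun t ht => abs_Icc ⟨by linarith [ht.1], ht.2⟩
  have i2 : ∀ t ∈ Icc (-(1 / 2) : ℝ) 0, |t| ≤ 1 := fun t ht => abs_Icc ⟨ht.1, by linarith [ht.2]⟩
  let F : E → Bool := fun z =>
    if z ∈ B then f z else if z ∈ bnd g (Icc 0 (1 / 2)) then f (g ![1 / 2, 0]) else f (g ![-1 / 2, 0])
  have ce : ∀ σ : ℝ, σ = 1 ∨ σ = -1 → ∀ z ∈ bnd g {σ / 2}, f z = f (g ![σ / 2, 0]) :=
    fun σ hσ z hz => (lf.mono (end_sub h hs hσ)).eq (bnd_pre h (fun _ => abs_pt hσ)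
      (convex_singleton _)) hz ⟨_, rfl, rfl⟩
  have c1 : ∀ z ∈ bnd g (Icc 0 (1 / 2)), F z = f (g ![1 / 2, 0]) := fun z hz => by
    simp only [F, if_pos hz]
    split_ifs with k
    · obtain ⟨w, hw, rfl⟩ := hz
      refine ce 1 (Or.inl rfl) _ ⟨w, le_antisymm hw.2 (not_lt.1 fun q => k.2 ⟨w, ⟨?_, q⟩, rfl⟩), rfl⟩
      linarith [hw.1]
    · rfl
  have c2 : ∀ z ∈ bnd g (Icc (-(1 / 2)) 0) \ bnd g {0}, F z = f (g ![-1 / 2, 0]) := by
    rintro _ ⟨⟨w, hw, rfl⟩, hn⟩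
    have lt : w 0 < 0 := lt_of_le_of_ne hw.2 fun e => hn ⟨w, e, rfl⟩
    have : g w ∉ bnd g (Icc 0 (1 / 2)) := fun q => by
      linarith [((mem_bnd h i1 (i2 _ hw)).1 q).1]
    simp only [F, if_neg this]
    split_ifs with k
    · refine ce (-1) (Or.inr rfl) _ ⟨w, le_antisymm (not_lt.1 fun q => k.2 ⟨w, ⟨?_, ?_⟩, rfl⟩)
        (by linarith [hw.1]), rfl⟩ <;> linarith
    · rfl
  have k1 := (bnd_cpt h (a := 0) (b := 1 / 2) (by norm_num) (by norm_num)).isClosed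
  have k2 := (bnd_cpt h (a := -(1 / 2)) (b := 0) (by norm_num) (by norm_num)).isClosed
  have k3 := isClosed_rest hS h hs
  have lF : LCo (S \ bnd g {0}) F := fun z hz => by
    have near : ∀ C : Set E, IsClosed C → ∀ᶠ w in 𝓝[S \ bnd g {0}] z, w ∈ C → z ∈ C := fun C hC => by
      by_cases q : z ∈ C
      · exact Eventually.of_forall fun _ _ => q
      · filter_upwards [mem_nhdsWithin_of_mem_nhds (hC.isOpen_compl.mem_nhds q)] with w a b
        exact (a b).elim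
    have nB : ∀ᶠ w in 𝓝[S \ bnd g {0}] z, z ∈ B → w ∈ B → f w = f z := by
      by_cases q : z ∈ B
      · filter_upwards [mem_nhdsWithin_of_mem_nhds (eventually_nhdsWithin_iff.1 (lf z q))]
          with w a _ b using a b
      · exact Eventually.of_forall fun _ a => (q a).elim
    filter_upwards [near _ k1, near _ k2, near _ k3, nB, self_mem_nhdsWithin] with w a b c d e
    by_cases q : w ∈ B
    · simp only [F, if_pos q, if_pos (show z ∈ B from c q), d (c q) q]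
    · obtain ⟨v, hv, rfl⟩ : w ∈ bnd g (Ioo (-(1 / 2)) (1 / 2)) := by_contra fun r => q ⟨e.1, r⟩
      rcases le_total 0 (v 0) with r | r
      · have : g v ∈ bnd g (Icc 0 (1 / 2)) := ⟨v, ⟨r, hv.2.le⟩, rfl⟩
        rw [c1 _ this, c1 _ (a this)]
      · have : g v ∈ bnd g (Icc (-(1 / 2)) 0) := ⟨v, ⟨hv.1.le, r⟩, rfl⟩
        rw [c2 _ ⟨this, e.2⟩, c2 _ ⟨b this, hz.2⟩]
  have sub : B ⊆ S \ bnd g {0} := fun z hz => ⟨hz.1, fun q => hz.2 (bnd_mono (fun t ht => by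
    rw [(ht : t = 0)]; constructor <;> norm_num) q)⟩
  simpa only [F, if_pos hx, if_pos hy] using lF.eq hc (sub hx) (sub hy)

/-- **(CUT)** -/
theorem cut (hS : Srf S ∅) (h : Ann A g) (hs : A ⊆ S)
    (hc : IsPreconnected (S \ g '' {y | y 0 = 0})) :
    ∃ A' B g', Ann A' g' ∧ A' ∪ B = S ∧ A' ∩ B = g' '' {y | y 0 = 1} ∪ g' '' {y | y 0 = -1} ∧
      Srf B (g' '' {y | y 0 = 1} ∪ g' '' {y | y 0 = -1}) ∧ IsConnected B ∧
      g '' {y | y 0 = 0} ⊆ A' := by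
  refine ⟨_, S \ bnd g (Ioo (-(1 / 2)) (1 / 2)), _, half h, ?_, ?_, ?_,
    ⟨⟨_, end_sub h hs (Or.inl rfl) ⟨![1 / 2, 0], rfl, rfl⟩⟩, conn_rest hS h hs hc⟩,
    bnd_mono (I := {0}) fun t ht => by rw [(ht : t = 0)]; constructor <;> norm_num⟩
  · refine Subset.antisymm (union_subset ((bnd_sub h fun _ => abs_Icc).trans hs) sdiff_subset)
      fun x hx => ?_
    by_cases k : x ∈ bnd g (Ioo (-(1 / 2)) (1 / 2))
    · exact Or.inl (bnd_mono Ioo_subset_Icc_self k)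
    · exact Or.inr ⟨hx, k⟩
  · rw [half_end, half_end]
    exact Subset.antisymm (fun x hx => split h hx.1 hx.2.2) (union_subset
      (subset_inter (end_sub' (Or.inl rfl)) (end_sub h hs (Or.inl rfl)))
      (subset_inter (end_sub' (Or.inr rfl)) (end_sub h hs (Or.inr rfl))))
  · rw [half_end, half_end]; exact srf_rest hS h hs

end Crest.Agent.X212.Tor42
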