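import Crest.Agent.X212.Tor42.Coh
import Crest.Agent.X212.Rz42.Main

/-!
# X212 / T layer, TOR (helper42), part 3: two annuli make a torus, lifts and equivariance
-/

set_option autoImplicit false

open Set Filter Topology Metric Pointwise

namespace Crest.Agent.X212.Tor42

open Crest.Agent.R096 Crest.Agent.R096.Ce_537 Crest.Agent.X212.Prd34 Crest.Agent.X212.Srf12
  Crest.Agent.X212.Lev33 Crest.Agent.X212.Rz42
open Crest.Agent.X212.Lad50 (pl_vec2 pl_add pl_sub pl_mul pl_coord pl_clm)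

variable {H : V → V} {S : Set V}

/-- an annulus whose two ends are glued -/
structure Lng (S : Set V) (w : P → V) (ε : ℝ) : Prop where
  pl : ∀ R : ℝ, PLOn w {y | |y 0| ≤ 1 ∧ |y 1| ≤ R}
  img : w '' {y | |y 0| ≤ 1} = S
  fib : ∀ y y' : P, -1 ≤ y 0 → y 0 < 1 → -1 ≤ y' 0 → y' 0 < 1 → w y = w y' →
    y 0 = y' 0 ∧ ∃ m : ℤ, y 1 - y' 1 = m
  per : ∀ t s : ℝ, |t| ≤ 1 → w ![t, s + 1] = w ![t, s]
  fin : ∀ s, w ![1, s] = w ![-1, ε * s]

lemma glue {A B : Set V} {g k : P → V} {ε : ℝ} (hε : ε * ε = 1) (hA : Ann A g) (hB : Ann B k)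
    (un : A ∪ B = S) (it : A ∩ B = g '' {y | y 0 = 1} ∪ g '' {y | y 0 = -1})
    (e1 : ∀ s, k ![-1, s] = g ![1, s]) (e2 : ∀ s, k ![1, s] = g ![-1, ε * s]) :
    ∃ w, Lng S w ε := by
  let w : P → V := fun y => if y 0 ≤ 0 then g ![2 * y 0 + 1, y 1] else k ![2 * y 0 - 1, y 1]
  have wl : ∀ y : P, y 0 ≤ 0 → w y = g ![2 * y 0 + 1, y 1] := fun y hy => if_pos hy
  have wr : ∀ y : P, 0 ≤ y 0 → w y = k ![2 * y 0 - 1, y 1] := fun y hy => by
    rcases hy.eq_or_lt with e | e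
    · rw [wl y e.ge, ← e]; norm_num [e1]
    · exact if_neg (not_le.2 e)
  have ml : ∀ t : ℝ, -1 ≤ t → t ≤ 0 → |2 * t + 1| ≤ 1 := fun t a b =>
    abs_le.2 ⟨by linarith, by linarith⟩
  have mr : ∀ t : ℝ, 0 ≤ t → t ≤ 1 → |2 * t - 1| ≤ 1 := fun t a b =>
    abs_le.2 ⟨by linarith, by linarith⟩
  have mix : ∀ y y' : P, -1 ≤ y 0 → y 0 ≤ 0 → 0 < y' 0 → y' 0 < 1 → w y ≠ w y' := by
    intro y y' a b c d e
    have m := mr _ c.le d.le
    have : w y' ∈ A ∩ B := ⟨e ▸ wl y b ▸ hA.img ▸ ⟨_, ml _ a b, rfl⟩,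
      wr y' c.le ▸ hB.img ▸ ⟨_, m, rfl⟩⟩
    rw [it, wr y' c.le] at this
    rcases this with ⟨z, hz, q⟩ | ⟨z, hz, q⟩
    · rw [← eta z, (hz : z 0 = 1), ← e1] at q
      have : (-1 : ℝ) = 2 * y' 0 - 1 := ((hB.fib _ _ (by simp) m).1 q).1
      linarith
    · rw [← eta z, (hz : z 0 = -1), show z 1 = ε * (ε * z 1) by rw [← mul_assoc, hε, one_mul],
        ← e2] at q
      have : (1 : ℝ) = 2 * y' 0 - 1 := ((hB.fib _ _ (by simp) m).1 q).1
      linarith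
  refine ⟨w, fun R => ?_, Subset.antisymm ?_ ?_, fun y y' a b c d e => ?_, fun t s ht => ?_,
    fun s => ?_⟩
  · have cl : ∀ a b : ℝ, IsClosed {y : P | (a ≤ y 0 ∧ y 0 ≤ b) ∧ |y 1| ≤ R} := fun a b =>
      ((isClosed_le continuous_const (continuous_apply 0)).and (isClosed_le (continuous_apply 0)
        continuous_const)).and (isClosed_le (by fun_prop) continuous_const)
    refine (PLOn.union (K := {y : P | (-1 ≤ y 0 ∧ y 0 ≤ 0) ∧ |y 1| ≤ R})
      (L := {y : P | (0 ≤ y 0 ∧ y 0 ≤ 1) ∧ |y 1| ≤ R})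
      (((hA.pl R).comp (pl_vec2 (pl_add (pl_mul 2 (pl_coord 0 _)) (plOn_const 1 _)) (pl_coord 1 _))
        fun y hy => ⟨ml _ hy.1.1 hy.1.2, hy.2⟩).congr fun y hy => wl y hy.1.2)
      (((hB.pl R).comp (pl_vec2 (pl_sub (pl_mul 2 (pl_coord 0 _)) (plOn_const 1 _)) (pl_coord 1 _))
        fun y hy => ⟨mr _ hy.1.1 hy.1.2, hy.2⟩).congr fun y hy => wr y hy.1.1)
      (cl _ _) (cl _ _)).mono fun y hy => ?_
    exact (le_total (y 0) 0).imp (fun k => ⟨⟨(abs_le.1 hy.1).1, k⟩, hy.2⟩)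
      fun k => ⟨⟨k, (abs_le.1 hy.1).2⟩, hy.2⟩
  · rintro _ ⟨y, hy, rfl⟩
    rw [← un]
    exact (le_total (y 0) 0).imp
      (fun k => wl y k ▸ hA.img ▸ ⟨_, ml _ (abs_le.1 hy).1 k, rfl⟩)
      fun k => wr y k ▸ hB.img ▸ ⟨_, mr _ k (abs_le.1 hy).2, rfl⟩
  · rw [← un, ← hA.img, ← hB.img]
    rintro _ (⟨y, hy, rfl⟩ | ⟨y, hy, rfl⟩)
    · have := abs_le.1 (show |y 0| ≤ 1 from hy)
      refine ⟨![(y 0 - 1) / 2, y 1], abs_le.2 ⟨show _ ≤ (y 0 - 1) / 2 by linarith,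
        show (y 0 - 1) / 2 ≤ _ by linarith⟩, ?_⟩
      rw [wl _ (show (y 0 - 1) / 2 ≤ 0 by linarith)]
      congr 1; ext i; fin_cases i <;> simp
      ring
    · have := abs_le.1 (show |y 0| ≤ 1 from hy)
      refine ⟨![(y 0 + 1) / 2, y 1], abs_le.2 ⟨show _ ≤ (y 0 + 1) / 2 by linarith,
        show (y 0 + 1) / 2 ≤ _ by linarith⟩, ?_⟩
      rw [wr _ (show 0 ≤ (y 0 + 1) / 2 by linarith)]
      congr 1; ext i; fin_cases i <;> simp
      ring
  · rcases le_or_gt (y 0) 0 with p | p <;> rcases le_or_gt (y' 0) 0 with q | q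
    · rw [wl y p, wl y' q] at e
      obtain ⟨r, s⟩ := (hA.fib _ _ (ml _ a p) (ml _ c q)).1 e
      exact ⟨by have : 2 * y 0 + 1 = 2 * y' 0 + 1 := r; linarith, s⟩
    · exact (mix y y' a p q d e).elim
    · exact (mix y' y c q p b e.symm).elim
    · rw [wr y p.le, wr y' q.le] at e
      obtain ⟨r, s⟩ := (hB.fib _ _ (mr _ p.le b.le) (mr _ q.le d.le)).1 e
      exact ⟨by have : 2 * y 0 - 1 = 2 * y' 0 - 1 := r; linarith, s⟩
  · rcases le_total t 0 with p | p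
    · rw [wl _ p, wl _ p]
      exact (hA.fib _ _ (ml _ (abs_le.1 ht).1 p) (ml _ (abs_le.1 ht).1 p)).2 ⟨rfl, 1, by simp⟩
    · rw [wr _ p, wr _ p]
      exact (hB.fib _ _ (mr _ p (abs_le.1 ht).2) (mr _ p (abs_le.1 ht).2)).2 ⟨rfl, 1, by simp⟩
  · rw [wr _ (by simp), wl _ (by simp)]
    norm_num [e2]

/-- generation of the lattice -/
lemma lat_gen {J : Finset (Fin 3)} {T K : Set V} (hT : IsPreconnected T) (hK : IsCompact K)
    (ne : K.Nonempty) (sub : ∀ x ∈ K, ∀ l ∈ lat J, x + l ∈ T)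
    (cov : ∀ z ∈ T, ∃ x ∈ K, ∃ l ∈ lat J, z = x + l) (Λ : AddSubgroup V)
    (gen : ∀ x ∈ K, ∀ x' ∈ K, x - x' ∈ lat J → x - x' ∈ Λ) : ∀ l ∈ lat J, l ∈ Λ := by
  have cl : ∀ L ⊆ lat J, IsClosed (K + L) := fun L hL =>
    IsClosed.add_left_of_isCompact (Metric.isClosed_of_pairwise_le_dist one_pos
      fun x hx y hy e => not_lt.1 fun k => e (sub_eq_zero.1 (lat_small (lat_sub (hL hx) (hL hy))
        (by rwa [← dist_eq_norm])))) hK
  have dj : ∀ z, z ∈ K + {l | l ∈ lat J ∧ l ∈ Λ} → z ∉ K + {l | l ∈ lat J ∧ l ∉ Λ} := by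
    rintro _ ⟨x, hx, l, hl, rfl⟩ ⟨x', hx', l', hl', e⟩
    have e' : x - x' = l' - l := by
      have : x' + l' = x + l := e
      linear_combination (exp := 1) -this
    have := Λ.add_mem (gen x hx x' hx' (e' ▸ lat_sub hl'.1 hl.1)) hl.2
    rw [e', sub_add_cancel] at this
    exact hl'.2 this
  obtain ⟨x, hx⟩ := ne
  intro l hl
  by_contra k
  obtain ⟨z, -, a, b⟩ := isPreconnected_closed_iff.1 hT _ _
    (cl {l | l ∈ lat J ∧ l ∈ Λ} fun _ k => k.1) (cl {l | l ∈ lat J ∧ l ∉ Λ} fun _ k => k.1)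
    (fun z hz => by
      obtain ⟨x, hx, l, hl, rfl⟩ := cov z hz
      by_cases q : l ∈ Λ
      · exact Or.inl ⟨x, hx, l, ⟨hl, q⟩, rfl⟩
      · exact Or.inr ⟨x, hx, l, ⟨hl, q⟩, rfl⟩)
    ⟨_, sub x hx 0 lat_zero, x, hx, 0, ⟨lat_zero, Λ.zero_mem⟩, rfl⟩
    ⟨_, sub x hx l hl, x, hx, l, ⟨hl, k⟩, rfl⟩
  exact dj z a b

lemma per_int {F : ℝ → V} {a : V} (h : ∀ s, F (s + 1) = F s + a) (s : ℝ) (m : ℤ) :
    F (s + m) = F s + m • a := by
  induction m using Int.induction_on with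
  | zero => simp
  | succ n ih => push_cast at ih ⊢; rw [← add_assoc, h, ih, add_smul, one_smul, add_assoc]
  | pred n ih =>
    push_cast at ih ⊢
    rw [sub_smul, one_smul, ← add_sub_assoc, ← add_sub_assoc, ← ih, eq_sub_iff_add_eq, ← h,
      sub_add_cancel]

lemma Lng.lift {w : P → V} {ε : ℝ} (L : Lng S w ε) (h : Per {0, 1} H) (hr : S ⊆ range H)
    (hc : IsPreconnected (H ⁻¹' S)) : ∃ (W : P → V) (a b : V), ContinuousOn W {y | |y 0| ≤ 1} ∧
      (∀ y : P, |y 0| ≤ 1 → H (W y) = w y) ∧ a ∈ lat {0, 1} ∧ b ∈ lat {0, 1} ∧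
      (∀ t s : ℝ, |t| ≤ 1 → W ![t, s + 1] = W ![t, s] + a) ∧
      (∀ s, W ![1, s] = W ![-1, ε * s] + b) ∧ ∀ l ∈ lat {0, 1}, ∃ p q : ℤ, p • a + q • b = l := by
  have cv : Convex ℝ {y : P | |y 0| ≤ 1} := by
    simp only [abs_le]
    exact (convex_Icc (-1 : ℝ) 1).linear_preimage (LinearMap.proj 0 : P →ₗ[ℝ] ℝ)
  have mS : ∀ y : P, |y 0| ≤ 1 → w y ∈ S := fun y hy => L.img ▸ ⟨y, hy, rfl⟩
  obtain ⟨z0, h0⟩ := hr (mS 0 (by simp))
  obtain ⟨W, cW, eW, -⟩ := exists_lift_convex h cv (cont_of_pl L.pl) (fun y hy => hr (mS y hy))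
    (t0 := 0) (by simp) h0
  have m1 : ∀ s : ℝ, |(![1, s] : P) 0| ≤ 1 := fun s => by simp
  have m2 : ∀ s : ℝ, |(![-1, s] : P) 0| ≤ 1 := fun s => by simp
  have ha : ∀ t s : ℝ, |t| ≤ 1 → W ![t, s + 1] = W ![t, s] + (W ![0, 0 + 1] - W 0) := by
    intro t s ht
    have := lift_uniq h cv.isPreconnected (g := fun y => W ![y 0, y 1 + 1]) (g' := W)
      (cW.comp (by fun_prop) fun y hy => hy) cW (fun y hy => by
        rw [eW ![y 0, y 1 + 1] hy, eW y hy, L.per _ _ hy, eta]) (s := 0) (t := ![t, s]) (by simp) ht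
    exact sub_eq_iff_eq_add'.1 this
  have hb : ∀ s, W ![1, s] = W ![-1, ε * s] + (W ![1, 0] - W ![-1, ε * 0]) := fun s =>
    sub_eq_iff_eq_add'.1 (lift_uniq h isPreconnected_univ (g := fun s : ℝ => W ![1, s])
      (g' := fun s => W ![-1, ε * s]) (cW.comp (by fun_prop) fun s _ => m1 s)
      (cW.comp (by fun_prop) fun s _ => m2 _) (fun s _ => by rw [eW _ (m1 _), eW _ (m2 _), L.fin])
      (s := 0) (t := s) trivial trivial)
  refine ⟨W, _, _, cW, eW, (h.fib _ _).1 ?_, (h.fib _ _).1 ?_, ha, hb, ?_⟩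
  · rw [eW _ (by simp), eW _ (by simp), L.per _ _ (by simp)]
    congr 1; ext i; fin_cases i <;> rfl
  · rw [eW _ (m1 _), eW _ (m2 _), L.fin]
  generalize W ![0, 0 + 1] - W 0 = a at ha
  generalize W ![1, 0] - W ![-1, ε * 0] = b at hb
  have sb : Icc (![-1, 0] : P) ![1, 1] ⊆ {y : P | |y 0| ≤ 1} := fun y hy =>
    abs_le.2 ⟨hy.1 0, hy.2 0⟩
  have ia : a ∈ AddSubgroup.closure {a, b} := AddSubgroup.subset_closure (by simp)
  have ib : b ∈ AddSubgroup.closure {a, b} := AddSubgroup.subset_closure (by simp)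
  have nf : ∀ y : P, |y 0| ≤ 1 → ∃ z : P, -1 ≤ z 0 ∧ z 0 < 1 ∧
      W y - W z ∈ AddSubgroup.closure {a, b} ∧ w y = w z := fun y hy => by
    rcases (abs_le.1 hy).2.eq_or_lt with e | e
    · refine ⟨![-1, ε * y 1], le_rfl, by simp, ?_, ?_⟩
      · rw [← eta y, e, hb]; simpa using ib
      · rw [← L.fin, ← e, eta]
    · exact ⟨y, (abs_le.1 hy).1, e, by simp, rfl⟩
  intro l hl
  refine AddSubgroup.mem_closure_pair.1 (lat_gen hc (isCompact_Icc.image_of_continuousOn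
    (cW.mono sb)) ⟨_, ![0, 0], ⟨fun i => ?_, fun i => ?_⟩, rfl⟩ ?_ (fun z hz => ?_) _ ?_ l hl)
  · fin_cases i <;> simp
  · fin_cases i <;> simp
  · rintro _ ⟨y, hy, rfl⟩ l hl
    rw [mem_preimage, per_add h _ hl, eW y (sb hy)]
    exact mS y (sb hy)
  · obtain ⟨y, hy, e⟩ := L.img.ge hz
    have k := per_int (F := fun s => w ![y 0, s]) (a := 0) (fun s => by simpa using L.per _ s hy)
      (Int.fract (y 1)) ⌊y 1⌋
    simp only [Int.fract_add_floor, eta, smul_zero, add_zero] at k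
    refine ⟨_, ⟨![y 0, Int.fract (y 1)], ⟨fun i => ?_, fun i => ?_⟩, rfl⟩, z - _,
      (h.fib _ _).1 (by rw [eW ![y 0, Int.fract (y 1)] hy, ← k, e]), (add_sub_cancel _ _).symm⟩
    · fin_cases i
      exacts [(abs_le.1 hy).1, Int.fract_nonneg _]
    · fin_cases i
      exacts [(abs_le.1 hy).2, (Int.fract_lt_one _).le]
  · rintro _ ⟨y, hy, rfl⟩ _ ⟨y', hy', rfl⟩ e
    obtain ⟨z, a1, a2, a3, a4⟩ := nf y (sb hy)
    obtain ⟨z', b1, b2, b3, b4⟩ := nf y' (sb hy')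
    have := (h.fib _ _).2 e
    rw [eW _ (sb hy), eW _ (sb hy'), a4, b4] at this
    obtain ⟨c1, m, c2⟩ := L.fib z z' a1 a2 b1 b2 this
    have k := per_int (F := fun s => W ![z' 0, s]) (fun s => ha _ s (abs_le.2 ⟨b1, b2.le⟩)) (z' 1) m
    simp only [← c2, add_sub_cancel, eta] at k
    rw [← c1, eta] at k
    have := AddSubgroup.add_mem _ (AddSubgroup.sub_mem _ a3 b3) (AddSubgroup.zsmul_mem _ ia m)
    convert this using 1
    rw [k]; abel

/-- unrolling -/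
noncomputable def unr (W : P → V) (b : V) (y : P) : V :=
  W ![2 * Int.fract (y 0) - 1, y 1] + ⌊y 0⌋ • b

lemma unr_eq {W : P → V} {b : V} (hb : ∀ s, W ![1, s] = W ![-1, s] + b) (j : ℤ) {y : P}
    (h1 : (j : ℝ) ≤ y 0) (h2 : y 0 ≤ j + 1) : unr W b y = W ![2 * (y 0 - j) - 1, y 1] + j • b := by
  rcases h2.eq_or_lt with e | e
  · have f : ⌊y 0⌋ = j + 1 := by rw [e]; simp
    rw [unr, Int.fract, f, e, show 2 * ((j : ℝ) + 1 - j) - 1 = 1 by ring, hb, add_smul, one_smul]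
    push_cast
    rw [show 2 * ((j : ℝ) + 1 - (j + 1)) - 1 = -1 by ring]; abel
  · have f : ⌊y 0⌋ = j := Int.floor_eq_iff.2 ⟨h1, e⟩
    rw [unr, Int.fract, f]

lemma Lng.tor {w : P → V} (L : Lng S w 1) (h : Per {0, 1} H) {W : P → V} {a b : V}
    (cW : ContinuousOn W {y | |y 0| ≤ 1}) (eW : ∀ y : P, |y 0| ≤ 1 → H (W y) = w y)
    (la : a ∈ lat {0, 1}) (lb : b ∈ lat {0, 1})
    (ha : ∀ t s : ℝ, |t| ≤ 1 → W ![t, s + 1] = W ![t, s] + a) (hb : ∀ s, W ![1, s] = W ![-1, s] + b) :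
    Continuous (unr W b) ∧ Tor S (fun y => H (unr W b y)) ∧
      ∀ (y : P) (m n : ℤ), unr W b (y + ![(m : ℝ), (n : ℝ)]) = unr W b y + (n • a + m • b) := by
  have fr : ∀ t : ℝ, -1 ≤ 2 * Int.fract t - 1 ∧ 2 * Int.fract t - 1 < 1 := fun t =>
    ⟨by linarith [Int.fract_nonneg t], by linarith [Int.fract_lt_one t]⟩
  have fr' : ∀ t : ℝ, |2 * Int.fract t - 1| ≤ 1 := fun t => abs_le.2 ⟨(fr t).1, (fr t).2.le⟩
  have cl : ∀ j : ℤ, IsClosed {y : P | (j : ℝ) ≤ y 0 ∧ y 0 ≤ j + 1} := fun j =>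
    (isClosed_le continuous_const (continuous_apply 0)).and (isClosed_le (continuous_apply 0)
      continuous_const)
  have mj : ∀ (j : ℤ) (y : P), (j : ℝ) ≤ y 0 ∧ y 0 ≤ j + 1 → |2 * (y 0 - j) - 1| ≤ 1 :=
    fun j y hy => abs_le.2 ⟨by linarith [hy.1], by linarith [hy.2]⟩
  have zb : ∀ j : ℤ, j • b ∈ lat {0, 1} := fun j => (latG {0, 1}).zsmul_mem lb j
  have eH : ∀ y, H (unr W b y) = w ![2 * Int.fract (y 0) - 1, y 1] := fun y => by
    rw [unr, per_add h _ (zb _), eW _ (fr' _)]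
  have eq : ∀ (y : P) (m n : ℤ),
      unr W b (y + ![(m : ℝ), (n : ℝ)]) = unr W b y + (n • a + m • b) := fun y m n => by
    have := per_int (F := fun s => W ![2 * Int.fract (y 0) - 1, s]) (fun s => ha _ s (fr' _)) (y 1) n
    simp only [unr, Pi.add_apply, Matrix.cons_val_zero, Matrix.cons_val_one, Int.fract_add_intCast,
      Int.floor_add_intCast, this, add_smul]
    abel
  refine ⟨continuous_iff_continuousAt.2 fun y => ?_, ⟨fun R => ?_, Subset.antisymm ?_ ?_,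
    fun y y' => ⟨fun e => ?_, fun e => ?_⟩⟩, eq⟩
  · have c : ∀ j : ℤ, ContinuousOn (unr W b) {y : P | (j : ℝ) ≤ y 0 ∧ y 0 ≤ j + 1} := fun j =>
      ((cW.comp (f := fun y : P => ![2 * (y 0 - j) - 1, y 1]) (by fun_prop) (mj j)).add
        continuousOn_const).congr fun y hy => unr_eq hb j hy.1 hy.2
    refine (((c (⌊y 0⌋ - 1)).union_of_isClosed (c ⌊y 0⌋) (cl _) (cl _)).continuousAt ?_)
    have : ∀ᶠ z : P in 𝓝 y, z 0 ∈ Ioo ((⌊y 0⌋ : ℝ) - 1) (⌊y 0⌋ + 1) :=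
      (continuous_apply 0).continuousAt (Ioo_mem_nhds (by linarith [Int.floor_le (y 0)])
        (Int.lt_floor_add_one _))
    filter_upwards [this] with z hz
    exact (le_total (z 0) ⌊y 0⌋).imp (fun k => ⟨by push_cast; exact hz.1.le, by push_cast; linarith⟩)
      fun k => ⟨k, hz.2.le⟩
  · refine (plOn_biUnion (K := fun j : ℤ => {y : P | (j : ℝ) ≤ y 0 ∧ y 0 ≤ j + 1} ∩ {y | |y 1| ≤ R})
      (Icc ⌊-R⌋ ⌊R⌋) (finite_Icc _ _) (fun j _ => ((L.pl R).comp (pl_vec2 (pl_sub (pl_mul 2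
        (pl_sub (pl_coord 0 _) (plOn_const (j : ℝ) _))) (plOn_const 1 _)) (pl_coord 1 _))
        fun y hy => ⟨mj j y hy.1, hy.2⟩).congr fun y hy => ?_)
      fun j _ => (cl j).inter (isClosed_le (by fun_prop) continuous_const)).mono fun y hy => ?_
    · show H (unr W b y) = _
      rw [unr_eq hb j hy.1.1 hy.1.2, per_add h _ (zb _), eW _ (mj j y hy.1)]
    · have k : ∀ i, |y i| ≤ R := fun i =>
        (norm_le_pi_norm y i).trans (mem_closedBall_zero_iff.1 hy)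
      exact mem_biUnion (show ⌊y 0⌋ ∈ Icc ⌊-R⌋ ⌊R⌋ from ⟨Int.floor_mono (abs_le.1 (k 0)).1,
        Int.floor_mono (abs_le.1 (k 0)).2⟩) ⟨⟨Int.floor_le _, (Int.lt_floor_add_one _).le⟩, k 1⟩
  · rintro _ ⟨y, rfl⟩
    exact L.img ▸ ⟨_, fr' _, (eH y).symm⟩
  · rw [← L.img]
    rintro _ ⟨y, hy, rfl⟩
    have := abs_le.1 (show |y 0| ≤ 1 from hy)
    refine ⟨![(y 0 + 1) / 2, y 1], ?_⟩
    show H (unr W b _) = _
    rw [unr_eq hb 0 (show ((0 : ℤ) : ℝ) ≤ (y 0 + 1) / 2 by push_cast; linarith)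
      (show (y 0 + 1) / 2 ≤ ((0 : ℤ) : ℝ) + 1 by push_cast; linarith), per_add h _ (zb _), ← eW y hy]
    congr 2; ext i; fin_cases i <;> simp
    ring
  · simp only [eH] at e
    obtain ⟨p, q⟩ := L.fib _ _ (fr _).1 (fr _).2 (fr _).1 (fr _).2 e
    have : Int.fract (y 0) = Int.fract (y' 0) := by
      have : 2 * Int.fract (y 0) - 1 = 2 * Int.fract (y' 0) - 1 := p
      linarith
    intro i
    fin_cases i
    exacts [Int.fract_eq_fract.1 this, q]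
  · obtain ⟨m, hm⟩ := e 0
    obtain ⟨n, hn⟩ := e 1
    have : y = y' + ![(m : ℝ), (n : ℝ)] := by
      ext i; fin_cases i
      · show y 0 = y' 0 + m
        linarith
      · show y 1 = y' 1 + n
        linarith
    show H _ = H _
    rw [this, eq, per_add h _ (lat_add ((latG {0, 1}).zsmul_mem la n) (zb m))]

/-- change of the basis -/
lemma basis {u : P → V} {a b : V} (cu : Continuous u) (tu : Tor S fun y => H (u y))
    (eu : ∀ (y : P) (m n : ℤ), u (y + ![(m : ℝ), (n : ℝ)]) = u y + (n • a + m • b))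
    (la : a ∈ lat {0, 1}) (lb : b ∈ lat {0, 1}) {p q r s : ℤ} (h0 : p • a + q • b = e0)
    (h1 : r • a + s • b = e1) : ∃ u : P → V, Continuous u ∧ Tor S (fun y => H (u y)) ∧
      ∀ y m : P, lv 0 m ∈ lat {0, 1} → u (y + m) = u y + lv 0 m := by
  obtain ⟨a0, a1, ea⟩ := eq_vec la
  obtain ⟨b0, b1, eb⟩ := eq_vec lb
  have k : (!![b0, a0; b1, a1] : Matrix (Fin 2) (Fin 2) ℤ) * !![q, s; p, r] = 1 := by
    have c1 := congrFun h0 0
    have c2 := congrFun h0 1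
    have c3 := congrFun h1 0
    have c4 := congrFun h1 1
    simp [ea, eb, e0, e1] at c1 c2 c3 c4
    norm_cast at c1 c2 c3 c4
    ext i j; fin_cases i <;> fin_cases j <;> simp [Matrix.mul_apply, Fin.sum_univ_two] <;> linarith
  have k' := mul_eq_one_comm.1 k
  have c : ∀ M N : Matrix (Fin 2) (Fin 2) ℤ, M * N = 1 → ∀ y : P,
      (M.map (↑) : Matrix _ _ ℝ).mulVec ((N.map (↑) : Matrix _ _ ℝ).mulVec y) = y := fun M N e y => by
    have : (M.map (↑) : Matrix _ _ ℝ) * N.map (↑) = (M * N).map (↑) :=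
      (Matrix.map_mul (f := Int.castRingHom ℝ)).symm
    rw [Matrix.mulVec_mulVec, this, e]
    simp
  have iz : ∀ (M : Matrix (Fin 2) (Fin 2) ℤ) (y : P), (∀ i, ∃ m : ℤ, y i = m) →
      ∀ i, ∃ m : ℤ, (M.map (↑) : Matrix _ _ ℝ).mulVec y i = m := fun M y hy i => by
    obtain ⟨m, hm⟩ := hy 0
    obtain ⟨n, hn⟩ := hy 1
    exact ⟨M i 0 * m + M i 1 * n, by simp [Matrix.mulVec, dotProduct, Fin.sum_univ_two, hm, hn]⟩
  set N : Matrix (Fin 2) (Fin 2) ℝ := (!![q, s; p, r] : Matrix (Fin 2) (Fin 2) ℤ).map (↑) with hN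
  let T : P →L[ℝ] P := LinearMap.toContinuousLinearMap N.mulVecLin
  refine ⟨fun y => u (T y), cu.comp T.continuous, ⟨fun R => (tu.pl (‖T‖ * R)).comp (pl_clm T _)
    fun y hy => ?_, ?_, fun y y' => (tu.fib _ _).trans ⟨fun e => ?_, fun e => ?_⟩⟩, fun y m hm => ?_⟩
  · rw [mem_closedBall_zero_iff] at hy ⊢
    exact T.le_opNorm_of_le hy
  · rw [← tu.img]
    exact Function.Surjective.range_comp (f := T) (fun y => ⟨_, c _ _ k' y⟩) fun y => H (u y)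
  · have := iz !![b0, a0; b1, a1] (T (y - y')) (by rw [map_sub]; exact e)
    rwa [show T (y - y') = N.mulVec (y - y') from rfl, c _ _ k] at this
  · have := iz !![q, s; p, r] (y - y') e
    rwa [show Matrix.mulVec _ (y - y') = T (y - y') from rfl, map_sub] at this
  · obtain ⟨m0, h2⟩ : ∃ n : ℤ, m 0 = n := (hm 0).1 (by decide)
    obtain ⟨m1, h3⟩ : ∃ n : ℤ, m 1 = n := (hm 1).1 (by decide)
    have : T m = ![((q * m0 + s * m1 : ℤ) : ℝ), ((p * m0 + r * m1 : ℤ) : ℝ)] := by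
      ext i
      fin_cases i <;> simp [T, hN, Matrix.mulVec, dotProduct, Fin.sum_univ_two, h2, h3]
    beta_reduce
    rw [map_add, this, eu]
    congr 1
    have : lv 0 m = m0 • e0 + m1 • e1 := by
      ext i; fin_cases i <;> simp [lv, e0, e1, h2, h3]
    rw [this, ← h1, ← h0]
    module

/-- **(END)** -/
theorem fin {w : P → V} {ε : ℝ} (hε : ε = 1 ∨ ε = -1) (L : Lng S w ε) (h : Per {0, 1} H)
    (hr : S ⊆ range H) (hc : IsPreconnected (H ⁻¹' S)) :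
    ∃ u : P → V, Continuous u ∧ Tor S (fun y => H (u y)) ∧
      ∀ y m : P, lv 0 m ∈ lat {0, 1} → u (y + m) = u y + lv 0 m := by
  obtain ⟨W, a, b, cW, eW, la, lb, ha, hb, gen⟩ := L.lift h hr hc
  obtain ⟨p, q, h0⟩ := gen _ e0_mem
  obtain ⟨r, s, h1⟩ := gen _ e1_mem
  rcases hε with rfl | rfl
  · simp only [one_mul] at hb
    obtain ⟨k1, k2, k3⟩ := L.tor h cW eW la lb ha hb
    exact basis k1 k2 k3 la lb h0 h1
  · exfalso
    have c1 := ha 1 0 (by simp)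
    have c2 := ha (-1) (-1) (by simp)
    rw [hb, hb] at c1
    norm_num at c1 c2
    have a0 : a = 0 := by
      have : (2 : ℝ) • a = 0 := by
        rw [c2] at c1
        rw [two_smul]
        linear_combination (exp := 1) -c1
      exact (smul_eq_zero.1 this).resolve_left two_ne_zero
    have c1 := congrFun h0 0
    have c2 := congrFun h0 1
    have c3 := congrFun h1 0
    have c4 := congrFun h1 1
    simp only [a0, e0, e1, Pi.mul_apply, Pi.intCast_apply, zsmul_eq_mul, Matrix.cons_val_zero,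
      smul_zero, Matrix.cons_val_one, zero_add] at c1 c2 c3 c4
    have : (1 : ℝ) = 0 := by linear_combination -(s * b 1) * c1 - c4 + (s * b 0) * c2
    exact one_ne_zero this

end Crest.Agent.X212.Tor42
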